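import Vale.Agent.P214.RG.Graph
import Vale.Agent.P214.COORD.Win

/-!
# P214, block RG: two descriptions of the same graph

`Same T w T' w'`: the graph of `w` over `T` is the graph of `w'` over `T'`.  Tangent planes, second
derivatives, minimality and heights are compared.
-/

open Set Filter Topology Metric
open scoped RealInnerProductSpace ContDiff

set_option linter.all false

namespace Vale.Agent.P214.RG

open FV KMS FM

variable {E : Type*} [NormedAddCommGroup E] [InnerProductSpace ℝ E] [FiniteDimensional ℝ E]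

/-- two descriptions of the same graph -/
structure Same (T : Submodule ℝ E) (w : E → E) (T' : Submodule ℝ E) (w' : E → E) : Prop where
  l : KMS.Ref T w
  r : KMS.Ref T' w'
  iff : ∀ y, rel T w y = 0 ↔ rel T' w' y = 0

lemma _root_.Vale.Agent.P214.KMS.Ref.diff1 {T : Submodule ℝ E} {w : E → E} (hw : KMS.Ref T w) :
    Differentiable ℝ (fderiv ℝ w) :=
  ((hw.smooth.fderiv_right (m := ∞) (by exact_mod_cast le_rfl))).differentiable (by simp)

lemma star_zero_of_ref {T : Submodule ℝ E} {w : E → E} (hw : KMS.Ref T w) (y : E) :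
    T.starProjection (w y) = 0 :=
  (Submodule.starProjection_apply_eq_zero_iff T).2 (hw.perp y)

/-- second derivative of a composition (vector valued) -/
lemma fderiv_fderiv_comp_vec {V W X : Type*} [NormedAddCommGroup V] [NormedSpace ℝ V]
    [NormedAddCommGroup W] [NormedSpace ℝ W] [NormedAddCommGroup X] [NormedSpace ℝ X]
    {Γ : W → X} {w : V → W} (hΓ : ContDiff ℝ 2 Γ) (hw : ContDiff ℝ 2 w) (y u v : V) :
    fderiv ℝ (fderiv ℝ (fun y => Γ (w y))) y u v =
      fderiv ℝ (fderiv ℝ Γ) (w y) (fderiv ℝ w y u) (fderiv ℝ w y v) +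
      fderiv ℝ Γ (w y) (fderiv ℝ (fderiv ℝ w) y u v) := by
  have hΓd : Differentiable ℝ Γ := hΓ.differentiable (by norm_num)
  have hwd : Differentiable ℝ w := hw.differentiable (by norm_num)
  have h1 : fderiv ℝ (fun y => Γ (w y)) = fun y => (fderiv ℝ Γ (w y)).comp (fderiv ℝ w y) := by
    funext y
    exact ((hΓd (w y)).hasFDerivAt.comp y (hwd y).hasFDerivAt).fderiv
  rw [h1]
  have hΓ' : ContDiff ℝ 1 (fderiv ℝ Γ) := hΓ.fderiv_right (by norm_num)
  have hw' : ContDiff ℝ 1 (fderiv ℝ w) := hw.fderiv_right (by norm_num)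
  have h2 : HasFDerivAt (fun y => fderiv ℝ Γ (w y))
      ((fderiv ℝ (fderiv ℝ Γ) (w y)).comp (fderiv ℝ w y)) y :=
    (hΓ'.differentiable (by norm_num) (w y)).hasFDerivAt.comp y (hwd y).hasFDerivAt
  have h3 : HasFDerivAt (fderiv ℝ w) (fderiv ℝ (fderiv ℝ w) y) y :=
    (hw'.differentiable (by norm_num) y).hasFDerivAt
  have h4 := (h2.clm_comp h3).fderiv
  rw [h4]
  simp
  abel

/-- symmetric contraction over a plane -/
lemma sum_bilin_star (S : Submodule ℝ E) (B : E →L[ℝ] E →L[ℝ] E) :
    ∑ k, B (S.starProjection (stdOrthonormalBasis ℝ E k)) (stdOrthonormalBasis ℝ E k) =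
    ∑ k, B (S.starProjection (stdOrthonormalBasis ℝ E k))
      (S.starProjection (stdOrthonormalBasis ℝ E k)) := by
  set b := stdOrthonormalBasis ℝ E with hb
  have hexp : ∀ v, ∑ j, ⟪b j, v⟫ • b j = v := fun v => b.sum_repr' v
  have h1 : ∀ k, B (S.starProjection (b k)) (S.starProjection (b k)) =
      ∑ j, ⟪S.starProjection (b j), b k⟫ • B (S.starProjection (b k)) (b j) := by
    intro k
    conv_lhs => rw [← hexp (S.starProjection (b k)), map_sum]
    refine Finset.sum_congr rfl fun j _ => ?_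
    rw [map_smul, hexp, inner_star]
  have h2 : ∀ j, B (S.starProjection (b j)) (b j) =
      ∑ k, ⟪S.starProjection (b j), b k⟫ • B (S.starProjection (b k)) (b j) := by
    intro j
    have h3 : S.starProjection (b j) =
        ∑ k, ⟪S.starProjection (b j), b k⟫ • S.starProjection (b k) := by
      conv_lhs => rw [← star_self S (b j), ← hexp (S.starProjection (b j)), map_sum]
      refine Finset.sum_congr rfl fun k _ => ?_
      rw [map_smul, real_inner_comm]
    conv_lhs => rw [h3, map_sum, ContinuousLinearMap.sum_apply]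
    refine Finset.sum_congr rfl fun k _ => ?_
    rw [map_smul, ContinuousLinearMap.smul_apply]
  rw [Finset.sum_congr rfl fun j _ => h2 j, Finset.sum_congr rfl fun k _ => h1 k, Finset.sum_comm]

/-- the parametrisation of the graph -/
noncomputable def gr (T : Submodule ℝ E) (w : E → E) (y : E) : E := T.starProjection y + w y

section one

variable {T : Submodule ℝ E} {w : E → E}

lemma gr_eq (y : E) (h : rel T w y = 0) : gr T w y = y := by
  have h1 : co T y = w y := sub_eq_zero.1 h
  unfold gr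
  rw [← h1, star_add_co]

lemma sub_gr (y : E) : y - gr T w y = rel T w y := by
  unfold gr rel
  rw [co_apply]
  abel

lemma rel_gr (hw : KMS.Ref T w) (y : E) : rel T w (gr T w y) = 0 := by
  have h1 : T.starProjection (gr T w y) = T.starProjection y := by
    unfold gr
    rw [map_add, star_self, star_zero_of_ref hw, add_zero]
  have h2 : w (gr T w y) = w y := by rw [hw.base, h1, ← hw.base]
  unfold rel
  rw [h2, co_apply, h1]
  unfold gr
  abel

lemma hasFDerivAt_gr (hw : KMS.Ref T w) (y : E) :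
    HasFDerivAt (gr T w) (T.starProjection + fderiv ℝ w y) y :=
  T.starProjection.hasFDerivAt.add (hw.diff y).hasFDerivAt

lemma contDiff_gr (hw : KMS.Ref T w) : ContDiff ℝ ∞ (gr T w) :=
  T.starProjection.contDiff.add hw.smooth

lemma D2_gr (hw : KMS.Ref T w) (y : E) : fderiv ℝ (fderiv ℝ (gr T w)) y = D2 w y := by
  have h1 : fderiv ℝ (gr T w) = fun y => T.starProjection + fderiv ℝ w y := by
    funext y; exact (hasFDerivAt_gr hw y).fderiv
  rw [h1]
  exact ((hw.diff1 y).hasFDerivAt.const_add T.starProjection).fderiv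

lemma D2_rel (hw : KMS.Ref T w) (y : E) : fderiv ℝ (fderiv ℝ (rel T w)) y = - D2 w y := by
  have h1 : fderiv ℝ (rel T w) = fun y => co T - fderiv ℝ w y := by
    funext y; exact (hw.hasFDerivAt_rel y).fderiv
  rw [h1]
  exact ((hw.diff1 y).hasFDerivAt.const_sub (co T)).fderiv

lemma mem_planeOf_iff_slp (hw : KMS.Ref T w) (y v : E) :
    v ∈ planeOf T w y ↔ slp T (fderiv ℝ w y) v = 0 := by
  constructor
  · intro h
    exact slp_gpl (hw.slope y) h
  · intro h
    rw [slp, ContinuousLinearMap.sub_apply, sub_eq_zero] at h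
    refine mem_gpl.2 ⟨T.starProjection v, T.starProjection_apply_mem v, ?_⟩
    rw [← (hw.slope y).ker, ← h, star_add_co]

/-- the differential of the parametrisation is the identity on the tangent plane -/
lemma fderiv_gr_eq (hw : KMS.Ref T w) {y v : E} (hv : v ∈ planeOf T w y) :
    fderiv ℝ (gr T w) y v = v := by
  have h1 := (mem_planeOf_iff_slp hw y v).1 hv
  rw [slp, ContinuousLinearMap.sub_apply, sub_eq_zero] at h1
  rw [(hasFDerivAt_gr hw y).fderiv, ContinuousLinearMap.add_apply, ← h1, star_add_co]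

lemma norm_slp_apply_le {A : E →L[ℝ] E} {ε : ℝ} (hA : ‖A‖ ≤ ε) (v : E) :
    ‖slp T A v‖ ≤ (1 + ε) * ‖v‖ := by
  rw [slp, ContinuousLinearMap.sub_apply]
  calc _ ≤ ‖co T v‖ + ‖A v‖ := norm_sub_le _ _
    _ ≤ ‖v‖ + ε * ‖v‖ := by
        gcongr
        · exact norm_co_le T v
        · exact (A.le_opNorm v).trans (by gcongr)
    _ = _ := by ring

lemma norm_rel_sub_le (hw : KMS.Ref T w) {ε : ℝ} (hε : ∀ y, ‖fderiv ℝ w y‖ ≤ ε) (y z : E) :
    ‖rel T w y - rel T w z‖ ≤ (1 + ε) * ‖y - z‖ := by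
  have hε0 : 0 ≤ ε := (norm_nonneg _).trans (hε 0)
  refine (convex_univ (𝕜 := ℝ) (E := E)).norm_image_sub_le_of_norm_hasFDerivWithin_le
    (f' := fun y => slp T (fderiv ℝ w y))
    (fun z _ => (hw.hasFDerivAt_rel z).hasFDerivWithinAt)
    (fun z _ => ContinuousLinearMap.opNorm_le_bound _ (by positivity)
      (norm_slp_apply_le (hε z))) (mem_univ z) (mem_univ y)

end one

namespace Same

variable {T T' : Submodule ℝ E} {w w' : E → E}

lemma symm (h : Same T w T' w') : Same T' w' T w := ⟨h.r, h.l, fun y => (h.iff y).symm⟩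

lemma rel_gr' (h : Same T w T' w') (y : E) : rel T w (gr T' w' y) = 0 :=
  (h.iff _).2 (rel_gr h.r y)

lemma slp_comp (h : Same T w T' w') (y v : E) :
    slp T (fderiv ℝ w (gr T' w' y)) (fderiv ℝ (gr T' w') y v) = 0 := by
  have h1 := (h.l.hasFDerivAt_rel (gr T' w' y)).comp y (hasFDerivAt_gr h.r y)
  have h2 : rel T w ∘ gr T' w' = fun _ => 0 := funext fun y => h.rel_gr' y
  rw [h2] at h1
  have h3 := h1.unique (hasFDerivAt_const (0 : E) y)
  have h4 := congrArg (fun L : E →L[ℝ] E => L v) h3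
  rw [(hasFDerivAt_gr h.r y).fderiv]
  exact h4

lemma planeOf_le (h : Same T w T' w') {y : E} (hy : rel T w y = 0) :
    planeOf T' w' y ≤ planeOf T w y := by
  intro v hv
  have hy' : gr T' w' y = y := gr_eq y ((h.iff y).1 hy)
  have h1 := h.slp_comp y v
  rw [fderiv_gr_eq h.r hv, hy'] at h1
  exact (mem_planeOf_iff_slp h.l y v).2 h1

/-- **the tangent planes agree** -/
theorem planeOf_eq (h : Same T w T' w') {y : E} (hy : rel T w y = 0) :
    planeOf T w y = planeOf T' w' y :=
  le_antisymm (h.symm.planeOf_le ((h.iff y).1 hy)) (h.planeOf_le hy)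

lemma PS_eq (h : Same T w T' w') {y : E} (hy : rel T w y = 0) : PS T w y = PS T' w' y := by
  unfold PS
  congr 1
  exact h.planeOf_eq hy

/-- **second derivatives on the tangent plane** -/
theorem D2_eq (h : Same T w T' w') {y : E} (hy : rel T w y = 0) {u v : E}
    (hu : u ∈ planeOf T w y) (hv : v ∈ planeOf T w y) :
    D2 w y u v = slp T (fderiv ℝ w y) (D2 w' y u v) := by
  have hu' : u ∈ planeOf T' w' y := by rw [← h.planeOf_eq hy]; exact hu
  have hv' : v ∈ planeOf T' w' y := by rw [← h.planeOf_eq hy]; exact hv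
  have hy' : gr T' w' y = y := gr_eq y ((h.iff y).1 hy)
  have h1 := fderiv_fderiv_comp_vec (Γ := rel T w) (w := gr T' w')
    (h.l.contDiff_rel.of_le two_le_inf)
    ((contDiff_gr h.r).of_le two_le_inf) y u v
  have h2 : (fun y => rel T w (gr T' w' y)) = fun _ => 0 := funext fun y => h.rel_gr' y
  rw [h2] at h1
  have h3 : fderiv ℝ (fun _ : E => (0 : E)) = fun _ => 0 := by
    funext z; rw [fderiv_fun_const]; rfl
  rw [h3] at h1
  have h4 : fderiv ℝ (fun _ : E => (0 : E →L[ℝ] E)) y = 0 := by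
    rw [fderiv_fun_const]; rfl
  rw [h4, fderiv_gr_eq h.r hu', fderiv_gr_eq h.r hv', hy', D2_rel h.l, D2_gr h.r,
    (h.l.hasFDerivAt_rel y).fderiv] at h1
  simp only [ContinuousLinearMap.zero_apply, ContinuousLinearMap.neg_apply] at h1
  rw [eq_comm, neg_add_eq_zero] at h1
  exact h1

/-- **the mean curvature vectors** -/
theorem lap_eq (h : Same T w T' w') {y : E} (hy : rel T w y = 0) :
    lap w (PS T w y) y = slp T (fderiv ℝ w y) (lap w' (PS T' w' y) y) := by
  have h1 : lap w (PS T w y) y = ∑ k, D2 w y ((planeOf T w y).starProjection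
      (stdOrthonormalBasis ℝ E k)) ((planeOf T w y).starProjection (stdOrthonormalBasis ℝ E k)) :=
    sum_bilin_star (planeOf T w y) (D2 w y)
  have h2 : lap w' (PS T' w' y) y = ∑ k, D2 w' y ((planeOf T w y).starProjection
      (stdOrthonormalBasis ℝ E k)) ((planeOf T w y).starProjection (stdOrthonormalBasis ℝ E k)) := by
    rw [← h.PS_eq hy]
    exact sum_bilin_star (planeOf T w y) (D2 w' y)
  rw [h1, h2, map_sum]
  exact Finset.sum_congr rfl fun k _ => h.D2_eq hy (Submodule.starProjection_apply_mem _ _)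
    (Submodule.starProjection_apply_mem _ _)

theorem lap_zero (h : Same T w T' w') {y : E} (hy : rel T w y = 0)
    (h0 : lap w' (PS T' w' y) y = 0) : lap w (PS T w y) y = 0 := by
  rw [h.lap_eq hy, h0, map_zero]

/-- the mean curvature at arbitrary points of the ambient space -/
lemma lap_gr {T : Submodule ℝ E} {w : E → E} (hw : KMS.Ref T w) (y : E) :
    lap w (PS T w (gr T w y)) (gr T w y) = lap w (PS T w y) y := by
  have hbf : COORD.BF T w := ⟨hw.c2, fun y => (hw.base y).symm, star_zero_of_ref hw⟩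
  have h1 : T.starProjection (gr T w y) = T.starProjection y := by
    unfold gr
    rw [map_add, star_self, star_zero_of_ref hw, add_zero]
  have key : ∀ y, lap w (PS T w (T.starProjection y)) (T.starProjection y) =
      lap w (PS T w y) y := by
    intro y
    have h3 : PS T w (T.starProjection y) = PS T w y := by
      unfold PS planeOf; simp only [hbf.fderiv_base]
    rw [h3]
    unfold lap
    refine Finset.sum_congr rfl fun k _ => ?_
    show D2 w (T.starProjection y) _ _ = D2 w y _ _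
    rw [hbf.D2_base]
  rw [← key (gr T w y), h1, key]

/-- **minimality is preserved** -/
theorem minimal (h : Same T w T' w') {y : E}
    (h0 : lap w' (PS T' w' (gr T w y)) (gr T w y) = 0) : lap w (PS T w y) y = 0 := by
  rw [← lap_gr h.l]
  exact h.lap_zero (rel_gr h.l y) h0

theorem minimalOver (h : Same T w T' w') {G G' : Set E} (hG : MinimalOver T' w' G')
    (hs : ∀ y, T.starProjection y ∈ G → T'.starProjection (gr T w y) ∈ G') :
    MinimalOver T w G := fun y hy => h.minimal (hG _ (hs y hy))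

/-- **heights** -/
theorem norm_rel_le (h : Same T w T' w') {ε : ℝ} (hε : ∀ y, ‖fderiv ℝ w y‖ ≤ ε) (y : E) :
    ‖rel T w y‖ ≤ (1 + ε) * ‖rel T' w' y‖ := by
  have h1 := norm_rel_sub_le h.l hε y (gr T' w' y)
  rwa [h.rel_gr', sub_zero, sub_gr] at h1

/-- expansion of the height -/
theorem rel_expand (h : Same T w T' w') {K : ℝ} (hK : ∀ y, ‖D2 w y‖ ≤ K) (y : E) :
    ‖rel T w y - slp T (fderiv ℝ w (gr T' w' y)) (rel T' w' y)‖ ≤ K * ‖rel T' w' y‖ ^ 2 := by
  have hK0 : 0 ≤ K := (norm_nonneg (D2 w 0)).trans (hK 0)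
  set z := gr T' w' y with hz
  have h0 : y - z = rel T' w' y := sub_gr y
  have h1 : ∀ x, ‖fderiv ℝ w x - fderiv ℝ w z‖ ≤ K * ‖x - z‖ := fun x =>
    (convex_univ (𝕜 := ℝ) (E := E)).norm_image_sub_le_of_norm_hasFDerivWithin_le
      (fun u _ => (h.l.diff1 u).hasFDerivAt.hasFDerivWithinAt) (fun u _ => hK u)
      (mem_univ z) (mem_univ x)
  have h2 := (convex_closedBall z ‖y - z‖).norm_image_sub_le_of_norm_hasFDerivWithin_le'
    (f := rel T w) (f' := fun x => slp T (fderiv ℝ w x)) (φ := slp T (fderiv ℝ w z))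
    (C := K * ‖y - z‖) (fun x _ => (h.l.hasFDerivAt_rel x).hasFDerivWithinAt)
    (fun x hx => by
      rw [mem_closedBall, dist_eq_norm] at hx
      have e1 : slp T (fderiv ℝ w x) - slp T (fderiv ℝ w z) =
          -(fderiv ℝ w x - fderiv ℝ w z) := by
        unfold slp; abel
      rw [e1, norm_neg]
      exact (h1 x).trans (by gcongr))
    (mem_closedBall_self (norm_nonneg _)) (mem_closedBall.2 (by rw [dist_eq_norm]))
  rw [h.rel_gr', sub_zero, h0] at h2
  refine h2.trans (le_of_eq (by ring))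

/-- **slopes relative to the two descriptions** -/
theorem norm_slp_le (h : Same T w T' w') {ε K : ℝ} (hε : ∀ y, ‖fderiv ℝ w y‖ ≤ ε)
    (hε' : ∀ y, ‖fderiv ℝ w' y‖ ≤ ε) (hK : ∀ y, ‖D2 w y‖ ≤ K) (y v : E) :
    ‖slp T (fderiv ℝ w y) v‖ ≤ (1 + ε) * ‖slp T' (fderiv ℝ w' y) v‖ +
      (1 + ε) * (K * ‖rel T' w' y‖) * ‖v‖ := by
  have hε0 : 0 ≤ ε := (norm_nonneg _).trans (hε 0)
  have hK0 : 0 ≤ K := (norm_nonneg (D2 w 0)).trans (hK 0)
  set z := gr T' w' y with hz
  have h0 : y - z = rel T' w' y := sub_gr y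
  have h1 : ∀ x, ‖fderiv ℝ w x - fderiv ℝ w z‖ ≤ K * ‖x - z‖ := fun x =>
    (convex_univ (𝕜 := ℝ) (E := E)).norm_image_sub_le_of_norm_hasFDerivWithin_le
      (fun u _ => (h.l.diff1 u).hasFDerivAt.hasFDerivWithinAt) (fun u _ => hK u)
      (mem_univ z) (mem_univ x)
  have h2 : v = fderiv ℝ (gr T' w') y v + slp T' (fderiv ℝ w' y) v := by
    rw [(hasFDerivAt_gr h.r y).fderiv, slp, ContinuousLinearMap.add_apply,
      ContinuousLinearMap.sub_apply, co_apply]
    abel
  have h3 : slp T (fderiv ℝ w y) v = -((fderiv ℝ w y - fderiv ℝ w z) (fderiv ℝ (gr T' w') y v)) +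
      slp T (fderiv ℝ w y) (slp T' (fderiv ℝ w' y) v) := by
    conv_lhs => rw [h2, map_add]
    congr 1
    have h4 := h.slp_comp y v
    rw [← hz] at h4
    have h5 : slp T (fderiv ℝ w y) (fderiv ℝ (gr T' w') y v) =
        slp T (fderiv ℝ w y) (fderiv ℝ (gr T' w') y v) -
        slp T (fderiv ℝ w z) (fderiv ℝ (gr T' w') y v) := by rw [h4, sub_zero]
    rw [h5]
    simp only [slp, ContinuousLinearMap.sub_apply]
    abel
  have h6 : ‖fderiv ℝ (gr T' w') y v‖ ≤ (1 + ε) * ‖v‖ := by
    rw [(hasFDerivAt_gr h.r y).fderiv, ContinuousLinearMap.add_apply]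
    calc _ ≤ ‖T'.starProjection v‖ + ‖fderiv ℝ w' y v‖ := norm_add_le _ _
      _ ≤ ‖v‖ + ε * ‖v‖ := by
          gcongr
          · exact norm_star_le _ v
          · exact ((fderiv ℝ w' y).le_opNorm v).trans (by gcongr; exact hε' y)
      _ = _ := by ring
  rw [h3]
  refine (norm_add_le _ _).trans ?_
  rw [norm_neg, add_comm]
  refine add_le_add (norm_slp_apply_le (hε y) _) ?_
  calc _ ≤ ‖fderiv ℝ w y - fderiv ℝ w z‖ * ‖fderiv ℝ (gr T' w') y v‖ :=
        (fderiv ℝ w y - fderiv ℝ w z).le_opNorm _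
    _ ≤ (K * ‖rel T' w' y‖) * ((1 + ε) * ‖v‖) := by
        gcongr
        rw [← h0]
        exact h1 y
    _ = _ := by ring

end Same

end Vale.Agent.P214.RG
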