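import Vale.Agent.P214.RG.Same
import Vale.Agent.P214.ALL.Frame

/-!
# P214, target B, [B4-RG] part (3): regraphs in frames
-/

open Set Filter Topology MeasureTheory Metric
open scoped RealInnerProductSpace ContDiff

set_option linter.all false

namespace Vale.Agent.P214.RG

open FV FM WIN

noncomputable section

variable {E : Type*} [NormedAddCommGroup E] [InnerProductSpace ℝ E] [FiniteDimensional ℝ E]
variable {m n : ℕ} {T T' : Submodule ℝ E}

lemma fderiv_trans {W : Type*} [NormedAddCommGroup W] [NormedSpace ℝ W] (w : E → W) (c : E) (b : W)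
    (Y : E) : fderiv ℝ (fun Y => w (Y - c) + b) Y = fderiv ℝ w (Y - c) := by
  rw [fderiv_add_const]
  have h := fderiv_comp_add_right (𝕜 := ℝ) (f := w) (x := Y) (-c)
  simpa only [← sub_eq_add_neg] using h

/-- `lap` of a translate -/
lemma lap_trans (w : E → E) (c b Y : E) (B : E →L[ℝ] E) :
    FV.lap (fun Y => w (Y - c) + b) B Y = FV.lap w B (Y - c) := by
  have h1 : fderiv ℝ (fun Y => w (Y - c) + b) = fun Y => fderiv ℝ w (Y - c) := by
    funext y
    exact fderiv_trans w c b y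
  unfold FV.lap
  rw [h1]
  refine Finset.sum_congr rfl fun k _ => ?_
  have h := fderiv_comp_add_right (𝕜 := ℝ) (f := fderiv ℝ w) (x := Y) (-c)
  simp only [← sub_eq_add_neg] at h
  rw [h]

lemma planeOf_trans (T : Submodule ℝ E) (w : E → E) (c b Y : E) :
    planeOf T (fun Y => w (Y - c) + b) Y = planeOf T w (Y - c) := by
  unfold planeOf
  rw [fderiv_trans]

/-- tangent planes of a translate -/
lemma PS_trans (T : Submodule ℝ E) (w : E → E) (c b Y : E) :
    PS T (fun Y => w (Y - c) + b) Y = PS T w (Y - c) := by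
  unfold PS
  simp only [planeOf_trans]

/-- the reference of a frame -/
lemma rf_lift (F : Frame m n T) {u : Fin n → REF.E m → ℝ} (hu : ∀ a, ContDiff ℝ ∞ (u a))
    {s : ℕ} {ε r : ℝ} (hr : 0 < r)
    (hb : ∀ a k, 1 ≤ k → k ≤ s → ∀ x, r ^ k * ‖iteratedFDeriv ℝ k (u a) x‖ ≤ r * ε) :
    RF T s (n * ε) r (F.lift u) := by
  refine ⟨F.contDiff_lift hu, fun y => F.lift_base u y, fun y => F.star_lift u y,
    fun k hk hk' y => ?_⟩
  have h1 := COORD.norm_iteratedFDeriv_lift F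
    (fun a => (hu a).of_le (m := (k : WithTop ℕ∞)) (WithTop.coe_le_coe.2 le_top)) y
  calc r ^ k * ‖iteratedFDeriv ℝ k (F.lift u) y‖
      ≤ r ^ k * ∑ a, ‖iteratedFDeriv ℝ k (u a) (F.xc y)‖ := by gcongr
    _ = ∑ a, r ^ k * ‖iteratedFDeriv ℝ k (u a) (F.xc y)‖ := Finset.mul_sum _ _ _
    _ ≤ ∑ _a : Fin n, r * ε := Finset.sum_le_sum fun a _ => hb a k hk hk' _
    _ = r * (n * ε) := by simp; ring

/-- components of a base dependent map in a frame -/
def cmp (F : Frame m n T) (w : E → E) (a : Fin n) (x : REF.E m) : ℝ :=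
  ⟪((F.bN a : Tᗮ) : E), w (F.up x)⟫

lemma cmp_eq (F : Frame m n T) (w : E → E) : cmp F w = (COORD.ofWin F).toC 0 1 w := by
  funext a x
  unfold cmp COORD.Frame.toC
  rw [one_smul, zero_add, div_one]
  rfl

lemma lift_cmp (F : Frame m n T) {s : ℕ} {ε R : ℝ} {w : E → E} (hw : RF T s ε R w) :
    F.lift (cmp F w) = w := by
  rw [cmp_eq, COORD.lift_eq]
  exact (COORD.ofWin F).frC_toC (zero_mem T) one_ne_zero hw.base hw.perp

lemma contDiff_cmp (F : Frame m n T) {s : ℕ} {ε R : ℝ} {w : E → E} (hw : RF T s ε R w)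
    (a : Fin n) : ContDiff ℝ ∞ (cmp F w a) := by
  rw [cmp_eq]
  exact (COORD.ofWin F).contDiff_toC hw.smooth 0 1 a

lemma bd_cmp (F : Frame m n T) {s : ℕ} {ε R : ℝ} (hR : 0 < R) {w : E → E} (hw : RF T s ε R w)
    (a : Fin n) {k : ℕ} (hk : 1 ≤ k) (hk' : k ≤ s) (x : REF.E m) :
    R ^ k * ‖iteratedFDeriv ℝ k (cmp F w a) x‖ ≤ R * ε := by
  have h1 := (COORD.ofWin F).norm_iteratedFDeriv_toC
    (hw.smooth.of_le (m := (k : WithTop ℕ∞)) (WithTop.coe_le_coe.2 le_top)) 0 one_pos a x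
  rw [← cmp_eq, one_mul, one_pow, one_mul] at h1
  exact (mul_le_mul_of_nonneg_left h1 (by positivity)).trans (hw.bd k hk hk' _)

/-- **[B4-RG] (3)**: a reference of a frame over `T'`, centred at `c`, as a reference of a frame
over `T`.  `u` has the graph of `u'` translated by `c`. -/
def FramesStmt (E : Type*) [NormedAddCommGroup E] [InnerProductSpace ℝ E]
    [FiniteDimensional ℝ E] (m n s : ℕ) : Prop :=
  ∃ ε₀ C : ℝ, 0 < ε₀ ∧ 1 ≤ C ∧ ∀ (T T' : Submodule ℝ E) (F : Frame m n T) (F' : Frame m n T')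
    (u' : Fin n → REF.E m → ℝ) (ε r : ℝ) (c : E), 0 < r → 0 ≤ ε → ε ≤ ε₀ →
    ‖T.starProjection - T'.starProjection‖ ≤ ε → (∀ a, ContDiff ℝ ∞ (u' a)) →
    (∀ a k, 1 ≤ k → k ≤ s → ∀ x, r ^ k * ‖iteratedFDeriv ℝ k (u' a) x‖ ≤ r * ε) →
    ∃ u : Fin n → REF.E m → ℝ, (∀ a, ContDiff ℝ ∞ (u a)) ∧
      (∀ a k, 1 ≤ k → k ≤ s → ∀ x, r ^ k * ‖iteratedFDeriv ℝ k (u a) x‖ ≤ r * (C * ε)) ∧
      (∀ x, ‖F.lift u (F.up x)‖ ≤ C * (‖F'.lift u' 0‖ + ‖co T c‖ + ε * (‖x‖ + ‖c‖))) ∧
      (∀ a x, |u a x| ≤ C * (‖F'.lift u' 0‖ + ‖co T c‖ + ε * (‖x‖ + ‖c‖))) ∧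
      (∀ ρ : ℝ, (∀ a x, ‖x‖ < ρ → REF.Mop u' a x = 0) → ∀ x : REF.E m,
        ‖x‖ + ‖c‖ + ε * ‖F.lift u (F.up x)‖ < ρ → ∀ a, REF.Mop u a x = 0) ∧
      Same T (F.lift u) T' (fun Y => F'.lift u' (Y - c) + co T' c) ∧
      ∀ Y, KMS.rel T (F.lift u) Y = 0 ↔ KMS.rel T' (F'.lift u') (Y - c) = 0

theorem frames {s : ℕ} (hs : 1 ≤ s) (m n : ℕ) : FramesStmt E m n s := by
  set ε₁ : ℝ := 1 / 6 with hε₁'
  set C₁ : ℝ := rgC s with hC₁'
  have hε₁ : 0 < ε₁ := by rw [hε₁']; norm_num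
  have hC₁ : 1 ≤ C₁ := one_le_rgC s
  have hn : (0:ℝ) ≤ n := Nat.cast_nonneg n
  set C : ℝ := 2 * (C₁ * (n + 1) + 1) with hC
  have hC1 : 1 ≤ C := by nlinarith
  have hC₁0 : 0 < C₁ := by linarith
  refine ⟨min (ε₁ / (n + 1)) C⁻¹, C, lt_min (by positivity) (by positivity), hC1, ?_⟩
  intro T T' F F' u' ε r c hr hε0 hε hTT hu' hb
  have hε1 : (n + 1) * ε ≤ ε₁ := by
    have := hε.trans (min_le_left _ _)
    rw [le_div_iff₀ (by positivity)] at this
    linarith
  have hCε : C * ε ≤ 1 := by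
    have h1 := hε.trans (min_le_right _ _)
    calc C * ε ≤ C * C⁻¹ := by gcongr
      _ = 1 := mul_inv_cancel₀ (by positivity)
  have hε2 : ε ≤ 1 := by nlinarith
  have hRF : RF T' s ((n + 1) * ε) r (F'.lift u') := by
    have h1 := rf_lift F' hu' hr hb
    refine ⟨h1.smooth, h1.base, h1.perp, fun k hk hk' y => (h1.bd k hk hk' y).trans ?_⟩
    gcongr
    linarith
  obtain ⟨w, hw, hSi⟩ := regraph hs hr hε1 (hTT.trans (by nlinarith)) (hRF.translate c)
  have hS : Same T w T' (fun Y => F'.lift u' (Y - c) + co T' c) :=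
    ⟨hw.ref, (hRF.translate c).ref, hSi⟩
  have hCC : C₁ * ((n + 1) * ε) ≤ C * ε := by
    rw [hC]
    nlinarith [mul_nonneg hC₁0.le (mul_nonneg (by positivity : (0:ℝ) ≤ n + 1) hε0)]
  have hlift : F.lift (cmp F w) = w := lift_cmp F hw
  have hiff : ∀ Y, KMS.rel T w Y = 0 ↔ KMS.rel T' (F'.lift u') (Y - c) = 0 := fun Y => by
    rw [hSi Y, hRF.rel_translate]
  -- Lipschitz constant of `w`
  have hlip : ∀ y z, ‖w y - w z‖ ≤ C * ε * ‖T.starProjection y - T.starProjection z‖ := by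
    intro y z
    rw [← hw.base y, ← hw.base z]
    refine convex_univ.norm_image_sub_le_of_norm_fderiv_le (𝕜 := ℝ) (f := w)
      (fun x _ => hw.smooth.differentiable (by simp) x) (fun x _ => ?_) (mem_univ _) (mem_univ _)
    have h1 := hw.bd 1 le_rfl hs x
    rw [pow_one, norm_iteratedFDeriv_one] at h1
    exact (le_of_mul_le_mul_left h1 hr).trans hCC
  -- a point of the graph
  have hval : ∀ x, ‖w (F.up x)‖ ≤ C * (‖F'.lift u' 0‖ + ‖co T c‖ + ε * (‖x‖ + ‖c‖)) := by
    intro x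
    set Z : E := c + F'.lift u' 0 with hZ
    have hz0 : F'.lift u' (F'.lift u' 0) = F'.lift u' 0 := by
      rw [← F'.lift_base u' (F'.lift u' 0), F'.star_lift]
    have h1 : KMS.rel T w Z = 0 := by
      rw [hiff, hZ, add_sub_cancel_left]
      unfold KMS.rel
      rw [hz0, co_apply, F'.star_lift, sub_zero, sub_self]
    have h2 : w Z = co T Z := by
      unfold KMS.rel at h1
      exact (sub_eq_zero.1 h1).symm
    have h3 : ‖co T Z‖ ≤ ‖co T c‖ + ‖F'.lift u' 0‖ := by
      rw [hZ, map_add]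
      refine (norm_add_le _ _).trans (add_le_add le_rfl ?_)
      rw [co_eq]
      exact norm_star_le _ _
    have h4 : ‖T.starProjection (F.up x) - T.starProjection Z‖ ≤ ‖x‖ + ‖c‖ + ‖F'.lift u' 0‖ := by
      rw [← map_sub]
      refine (norm_star_le _ _).trans ((norm_sub_le _ _).trans ?_)
      rw [hZ]
      have h5 : ‖F.up x‖ = ‖x‖ := (COORD.ofWin F).i.norm_map x
      have := norm_add_le c (F'.lift u' 0)
      linarith
    have h5 := hlip (F.up x) Z
    have h6 : ‖w (F.up x)‖ ≤ ‖w Z‖ + ‖w (F.up x) - w Z‖ := by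
      have := norm_add_le (w Z) (w (F.up x) - w Z)
      rwa [add_sub_cancel] at this
    rw [h2] at h6 h5
    have h7 : C * ε * ‖T.starProjection (F.up x) - T.starProjection Z‖ ≤
        C * ε * (‖x‖ + ‖c‖ + ‖F'.lift u' 0‖) := by gcongr
    have h8 : C * ε * ‖F'.lift u' 0‖ ≤ 1 * ‖F'.lift u' 0‖ := by gcongr
    have h9 : (2:ℝ) ≤ C := by
      rw [hC]; nlinarith [mul_nonneg hC₁0.le (by positivity : (0:ℝ) ≤ n + 1)]
    have h10 := norm_nonneg (F'.lift u' 0)
    have h11 := norm_nonneg (co T c)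
    have h12 : 2 * ‖F'.lift u' 0‖ ≤ C * ‖F'.lift u' 0‖ := by gcongr
    have h13 : 1 * ‖co T c‖ ≤ C * ‖co T c‖ := by gcongr
    linarith
  refine ⟨cmp F w, contDiff_cmp F hw, fun a k hk hk' x => ?_, fun x => ?_, fun a x => ?_,
    fun ρ hρ x hx => ?_, ?_, fun Y => ?_⟩
  · refine (bd_cmp F hr hw a hk hk' x).trans ?_
    gcongr
  · rw [hlift]; exact hval x
  · refine le_trans ?_ (hval x)
    unfold cmp
    refine (abs_real_inner_le_norm _ _).trans ?_
    rw [F.norm_bN, one_mul]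
  · -- exactness
    rw [hlift] at hx
    set Y : E := F.up x + w (F.up x) with hY
    have hup : T.starProjection (F.up x) = F.up x := by
      rw [← COORD.ofWin_i]; exact (COORD.ofWin F).star_i x
    have hcup : co T (F.up x) = 0 := by rw [co_apply, hup, sub_self]
    have hYs : T.starProjection Y = F.up x := by
      rw [hY, map_add, hup, hw.perp, add_zero]
    have hYr : KMS.rel T w Y = 0 := by
      have h1 : w Y = w (F.up x) := by rw [← hw.base Y, hYs]
      unfold KMS.rel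
      rw [h1, hY, map_add, hcup, zero_add, co_apply, hw.perp, sub_zero, sub_self]
    have hxc : F.xc Y = x := by
      rw [← F.xc_star, hYs, ← COORD.ofWin_c, ← COORD.ofWin_i]
      exact (COORD.ofWin F).c_i x
    have h2 : ‖F'.xc (Y - c)‖ < ρ := by
      refine lt_of_le_of_lt ?_ hx
      rw [F'.norm_xc, map_sub]
      have h3 : T'.starProjection Y = T'.starProjection (F.up x) +
          (T'.starProjection (w (F.up x)) - T.starProjection (w (F.up x))) := by
        rw [hY, map_add, hw.perp, sub_zero]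
      have h4 : ‖T'.starProjection (w (F.up x)) - T.starProjection (w (F.up x))‖ ≤
          ε * ‖w (F.up x)‖ := by
        rw [norm_sub_rev]
        exact ((T.starProjection - T'.starProjection).le_opNorm (w (F.up x))).trans (by gcongr)
      have h5 : ‖F.up x‖ = ‖x‖ := (COORD.ofWin F).i.norm_map x
      have h6 : ‖T'.starProjection (F.up x)‖ ≤ ‖x‖ := (norm_star_le _ _).trans h5.le
      have h7 := norm_star_le T' c
      rw [h3]
      have h8 := norm_sub_le (T'.starProjection (F.up x) +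
          (T'.starProjection (w (F.up x)) - T.starProjection (w (F.up x)))) (T'.starProjection c)
      have h9 := norm_add_le (T'.starProjection (F.up x))
          (T'.starProjection (w (F.up x)) - T.starProjection (w (F.up x)))
      linarith
    have h3 : FV.lap (fun Y => F'.lift u' (Y - c) + co T' c)
        (PS T' (fun Y => F'.lift u' (Y - c) + co T' c) Y) Y = 0 := by
      rw [lap_trans, PS_trans]
      exact (COORD.lap_lift_eq_zero_iff F' (fun a => (hu' a).of_le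
        (WithTop.coe_le_coe.2 le_top)) _).2 fun a => hρ a _ h2
    have h4 := hS.lap_zero hYr h3
    rw [← hlift] at h4
    have h5 := (COORD.lap_lift_eq_zero_iff F (fun a => (contDiff_cmp F hw a).of_le
        (WithTop.coe_le_coe.2 le_top)) _).1 h4
    rw [hxc] at h5
    exact h5
  · rw [hlift]; exact hS
  · rw [hlift]; exact hiff Y

end

end Vale.Agent.P214.RG
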