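import Vale.Agent.P214.RG.Inv
import Vale.Agent.P214.KMS.Sheet
import Vale.Agent.P214.COORD.Norms

/-!
# P214, block RG: the same graph over another plane

`RF T s ε R w`: `w` is base dependent over `T`, values in `Tᗮ`, scaled derivatives of order
`1, …, s` at most `ε`.  `regraph`: a graph over `T'` with small scaled norms is, if `T` is close to
`T'`, also a graph over `T` with small scaled norms.
-/

open Set Filter Topology Metric
open scoped RealInnerProductSpace ContDiff Nat

set_option linter.all false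

namespace Vale.Agent.P214.RG

open FV KMS

variable {E : Type*} [NormedAddCommGroup E] [InnerProductSpace ℝ E] [FiniteDimensional ℝ E]

/-- base dependent smooth map with values in `Tᗮ`, scaled derivatives of order `1, …, s` at most `ε`
at scale `R` -/
structure RF (T : Submodule ℝ E) (s : ℕ) (ε R : ℝ) (w : E → E) : Prop where
  smooth : ContDiff ℝ ∞ w
  base : ∀ y, w (T.starProjection y) = w y
  perp : ∀ y, T.starProjection (w y) = 0
  bd : ∀ k, 1 ≤ k → k ≤ s → ∀ y, R ^ k * ‖iteratedFDeriv ℝ k w y‖ ≤ R * ε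

namespace RF

variable {T : Submodule ℝ E} {s : ℕ} {ε R : ℝ} {w : E → E}

lemma ref (hw : RF T s ε R w) : KMS.Ref T w :=
  ⟨hw.smooth, fun y => (hw.base y).symm, fun y =>
    (Submodule.starProjection_apply_eq_zero_iff T).1 (hw.perp y)⟩

lemma slope (hw : RF T s ε R w) (hR : 0 < R) (hs : 1 ≤ s) (y : E) : ‖fderiv ℝ w y‖ ≤ ε := by
  have h1 := hw.bd 1 le_rfl hs y
  rw [pow_one, norm_iteratedFDeriv_one] at h1
  exact le_of_mul_le_mul_left h1 hR

lemma mono (hw : RF T s ε R w) (hR : 0 ≤ R) {s' : ℕ} (hs : s' ≤ s) {ε' : ℝ} (hε : ε ≤ ε') :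
    RF T s' ε' R w :=
  ⟨hw.smooth, hw.base, hw.perp, fun k h1 h2 y => (hw.bd k h1 (h2.trans hs) y).trans (by gcongr)⟩

/-- a smaller scale -/
lemma scale_mono (hw : RF T s ε R w) {R' : ℝ} (hR' : 0 < R') (hR : R' ≤ R) : RF T s ε R' w :=
  ⟨hw.smooth, hw.base, hw.perp, fun k h1 h2 y => by
    have hR0 : 0 < R := hR'.trans_le hR
    obtain ⟨j, rfl⟩ : ∃ j, k = j + 1 := ⟨k - 1, by omega⟩
    have h3 := hw.bd (j + 1) h1 h2 y
    rw [pow_succ', mul_assoc] at h3 ⊢
    have h4 := le_of_mul_le_mul_left h3 hR0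
    refine mul_le_mul_of_nonneg_left (le_trans ?_ h4) hR'.le
    gcongr⟩

/-- translation -/
lemma translate (hw : RF T s ε R w) (c : E) : RF T s ε R fun y => w (y - c) + co T c := by
  refine ⟨(hw.smooth.comp (contDiff_id.sub contDiff_const)).add contDiff_const, fun y => ?_,
    fun y => ?_, fun k h1 h2 y => ?_⟩
  · rw [← hw.base (T.starProjection y - c), ← hw.base (y - c), map_sub, map_sub, star_self]
  · rw [map_add, hw.perp, star_co, add_zero]
  · have h3 : iteratedFDeriv ℝ k (fun y => w (y - c) + co T c) y = iteratedFDeriv ℝ k w (y - c) := by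
      have h4 := iter_sub_const (g := fun y => w (y - c)) h1 (-(co T c)) y
      simp only [sub_neg_eq_add] at h4
      rw [h4]
      have h5 := iteratedFDeriv_comp_sub (𝕜 := ℝ) (f := w) k c y
      exact h5
    rw [h3]
    exact hw.bd k h1 h2 _

lemma rel_translate (hw : RF T s ε R w) (c y : E) :
    rel T (fun y => w (y - c) + co T c) y = rel T w (y - c) := by
  show co T y - (w (y - c) + co T c) = co T (y - c) - w (y - c)
  rw [map_sub]
  abel

/-- dilation -/
lemma dil (hw : RF T s ε R w) (hR : 0 < R) {a : ℝ} (ha : 0 < a) :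
    RF T s ε (R / a) fun y => a⁻¹ • w (a • y) := by
  refine ⟨(hw.smooth.comp (contDiff_id.const_smul a)).const_smul a⁻¹, fun y => ?_,
    fun y => ?_, fun k h1 h2 y => ?_⟩
  · rw [← hw.base (a • y), map_smul]
  · rw [map_smul, hw.perp, smul_zero]
  · have h0 : ContDiff ℝ k w := hw.smooth.of_le (by exact_mod_cast le_top)
    have h3 := COORD.norm_iteratedFDeriv_affine h0 (a • ContinuousLinearMap.id ℝ E) (r := a) (by
      rw [norm_smul, Real.norm_eq_abs, abs_of_pos ha]
      calc a * ‖ContinuousLinearMap.id ℝ E‖ ≤ a * 1 := by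
            gcongr; exact ContinuousLinearMap.norm_id_le
        _ = a := mul_one a) 0 y
    simp only [zero_add, ContinuousLinearMap.smul_apply, ContinuousLinearMap.id_apply] at h3
    have h4 : ContDiff ℝ k fun y => w (a • y) := h0.comp (contDiff_id.const_smul a)
    have h5 : iteratedFDeriv ℝ k (fun y => a⁻¹ • w (a • y)) y =
        a⁻¹ • iteratedFDeriv ℝ k (fun y => w (a • y)) y :=
      iteratedFDeriv_const_smul_apply h4.contDiffAt
    rw [h5, norm_smul, Real.norm_eq_abs, abs_of_pos (inv_pos.2 ha)]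
    have h6 := hw.bd k h1 h2 (a • y)
    calc (R / a) ^ k * (a⁻¹ * ‖iteratedFDeriv ℝ k (fun y => w (a • y)) y‖)
        ≤ (R / a) ^ k * (a⁻¹ * (a ^ k * ‖iteratedFDeriv ℝ k w (a • y)‖)) := by gcongr
      _ = a⁻¹ * (R ^ k * ‖iteratedFDeriv ℝ k w (a • y)‖) := by
          rw [div_pow]
          field_simp
      _ ≤ a⁻¹ * (R * ε) := by gcongr
      _ = R / a * ε := by ring

end RF

lemma rel_dil (T : Submodule ℝ E) (w : E → E) {a : ℝ} (ha : a ≠ 0) (y : E) :
    rel T (fun y => a⁻¹ • w (a • y)) y = a⁻¹ • rel T w (a • y) := by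
  unfold rel
  rw [map_smul, smul_sub, smul_smul, inv_mul_cancel₀ ha, one_smul]

/-! ### the construction at scale one -/

lemma norm_iter_clm_le {F : Type*} [NormedAddCommGroup F] [NormedSpace ℝ F] {k : ℕ} (hk : 1 ≤ k)
    (L : E →L[ℝ] F) (y : E) : ‖iteratedFDeriv ℝ k L y‖ ≤ ‖L‖ := by
  obtain ⟨j, rfl⟩ : ∃ j, k = j + 1 := ⟨k - 1, by omega⟩
  rw [← norm_iteratedFDeriv_fderiv]
  have h1 : fderiv ℝ L = fun _ => L := by
    funext z; exact L.fderiv
  rw [h1]
  rcases Nat.eq_zero_or_pos j with rfl | hj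
  · rw [norm_iteratedFDeriv_zero]
  · rw [iteratedFDeriv_const_of_ne (by omega)]
    simp

/-- `p p' + q q' - 1` -/
noncomputable def Lm (T T' : Submodule ℝ E) : E →L[ℝ] E :=
  T.starProjection.comp T'.starProjection + (co T).comp (co T') - ContinuousLinearMap.id ℝ E

lemma norm_Lm_le {T T' : Submodule ℝ E} {α : ℝ}
    (h : ‖T.starProjection - T'.starProjection‖ ≤ α) : ‖Lm T T'‖ ≤ 2 * α := by
  have hα : 0 ≤ α := (norm_nonneg _).trans h
  refine ContinuousLinearMap.opNorm_le_bound _ (by positivity) fun v => ?_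
  have h1 : Lm T T' v = -(T.starProjection ((T.starProjection - T'.starProjection) v)
      - (T.starProjection - T'.starProjection) (T'.starProjection v)) := by
    simp only [Lm, ContinuousLinearMap.sub_apply, ContinuousLinearMap.add_apply,
      ContinuousLinearMap.comp_apply, ContinuousLinearMap.id_apply, co_apply, map_sub, star_self]
    abel
  rw [h1, norm_neg]
  have h2 : ∀ v, ‖(T.starProjection - T'.starProjection) v‖ ≤ α * ‖v‖ := fun v =>
    ((T.starProjection - T'.starProjection).le_opNorm v).trans (by gcongr)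
  calc _ ≤ ‖T.starProjection ((T.starProjection - T'.starProjection) v)‖ +
        ‖(T.starProjection - T'.starProjection) (T'.starProjection v)‖ := norm_sub_le _ _
    _ ≤ α * ‖v‖ + α * ‖v‖ := by
        refine add_le_add ((norm_star_le _ _).trans (h2 v)) ((h2 _).trans ?_)
        gcongr
        exact norm_star_le _ _
    _ = 2 * α * ‖v‖ := by ring

/-- points of `T` which are orthogonal to `T'` vanish -/
lemma eq_zero_of_mem_of_perp {T T' : Submodule ℝ E} {α : ℝ} (hα : α < 1)
    (h : ‖T.starProjection - T'.starProjection‖ ≤ α) {z : E} (hz : T.starProjection z = z)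
    (hz' : T'.starProjection z = 0) : z = 0 := by
  have h1 : (T.starProjection - T'.starProjection) z = z := by
    rw [ContinuousLinearMap.sub_apply, hz, hz', sub_zero]
  have h2 := (T.starProjection - T'.starProjection).le_opNorm z
  rw [h1] at h2
  have h3 : ‖z‖ ≤ α * ‖z‖ := h2.trans (by gcongr)
  exact norm_eq_zero.1 (le_antisymm (by nlinarith [norm_nonneg z]) (norm_nonneg z))

/-- constant of `regraph` -/
noncomputable def rgC (s : ℕ) : ℝ := 3 * invC s + s ! * (1 + invC s) ^ s

lemma one_le_rgC (s : ℕ) : 1 ≤ rgC s := by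
  have h1 := one_le_invC s
  have h2 : (0:ℝ) ≤ s ! * (1 + invC s) ^ s := by positivity
  unfold rgC
  linarith

theorem regraph_one {s : ℕ} (hs : 1 ≤ s) {T T' : Submodule ℝ E} {w' : E → E} {ε : ℝ}
    (hε : ε ≤ 1 / 6) (hT : ‖T.starProjection - T'.starProjection‖ ≤ ε) (hw' : RF T' s ε 1 w') :
    ∃ w : E → E, RF T s (rgC s * ε) 1 w ∧ ∀ y, rel T w y = 0 ↔ rel T' w' y = 0 := by
  have hε0 : 0 ≤ ε := (norm_nonneg _).trans hT
  have hi1 := one_le_invC s
  set f : E → E := fun y => Lm T T' y + T.starProjection (w' y) with hf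
  have hfs : ContDiff ℝ ∞ f := (Lm T T').contDiff.add (T.starProjection.contDiff.comp hw'.smooth)
  have hw'b : ∀ k, 1 ≤ k → k ≤ s → ∀ y, ‖iteratedFDeriv ℝ k w' y‖ ≤ ε := by
    intro k h1 h2 y
    have := hw'.bd k h1 h2 y
    rwa [one_pow, one_mul, one_mul] at this
  have hfb : ∀ j, 1 ≤ j → j ≤ s → ∀ y, ‖iteratedFDeriv ℝ j f y‖ ≤ 3 * ε := by
    intro j h1 h2 y
    have hle : ((j : ℕ∞) : WithTop ℕ∞) ≤ ∞ := by exact_mod_cast le_top
    have h3 : iteratedFDeriv ℝ j f y = iteratedFDeriv ℝ j (Lm T T') y +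
        iteratedFDeriv ℝ j (fun y => T.starProjection (w' y)) y :=
      iteratedFDeriv_add_apply ((Lm T T').contDiff.contDiffAt)
        ((T.starProjection.contDiff.comp (hw'.smooth.of_le hle)).contDiffAt)
    rw [h3]
    have h4 := T.starProjection.norm_iteratedFDeriv_comp_left
      ((hw'.smooth.of_le hle).contDiffAt (x := y)) (le_refl (j : WithTop ℕ∞))
    have h5 : ‖iteratedFDeriv ℝ j (fun y => T.starProjection (w' y)) y‖ ≤ ε := by
      refine (h4.trans ?_)
      calc ‖T.starProjection‖ * ‖iteratedFDeriv ℝ j w' y‖ ≤ 1 * ε := by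
            gcongr
            · exact T.starProjection_norm_le
            · exact hw'b j h1 h2 y
        _ = ε := one_mul ε
    calc _ ≤ ‖iteratedFDeriv ℝ j (Lm T T') y‖ +
          ‖iteratedFDeriv ℝ j (fun y => T.starProjection (w' y)) y‖ := norm_add_le _ _
      _ ≤ 2 * ε + ε := add_le_add ((norm_iter_clm_le h1 _ _).trans (norm_Lm_le hT)) h5
      _ = 3 * ε := by ring
  obtain ⟨Ψ, hΨs, hΨ1, hΨ2⟩ := exists_inv hfs fun y => by
    rw [← norm_iteratedFDeriv_one]
    exact (hfb 1 le_rfl hs y).trans (by linarith)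
  have hθb := norm_iter_inv_le s hfs hΨs hΨ1 (δ := 3 * ε) (by linarith) hfb
  have hθs : ContDiff ℝ ∞ fun y => Ψ y - y := hΨs.sub contDiff_id
  -- the new map
  set w : E → E := fun y => co T (Ψ (T.starProjection y) + w' (Ψ (T.starProjection y))) with hw
  have hΦ : ∀ y, y + f y = T.starProjection (T'.starProjection y + w' y) + co T (co T' y) := by
    intro y
    simp only [hf, Lm, ContinuousLinearMap.sub_apply, ContinuousLinearMap.add_apply,
      ContinuousLinearMap.comp_apply, ContinuousLinearMap.id_apply, map_add]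
    abel
  have hmem : ∀ y, T.starProjection y = y → co T' (Ψ y) = 0 := by
    intro y hy
    have h1 := hΨ1 y
    rw [hΦ] at h1
    have h2 := congrArg (co T) h1
    rw [map_add, co_star, co_self, zero_add, co_apply T y, hy, sub_self] at h2
    refine eq_zero_of_mem_of_perp (α := ε) (by linarith) hT ?_ (star_co _ _)
    rw [co_apply, sub_eq_zero] at h2
    exact h2.symm
  refine ⟨w, ⟨?_, fun y => ?_, fun y => ?_, fun k h1 h2 y => ?_⟩, fun y => ⟨fun h => ?_,
    fun h => ?_⟩⟩
  · exact (co T).contDiff.comp ((hΨs.comp T.starProjection.contDiff).add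
      (hw'.smooth.comp (hΨs.comp T.starProjection.contDiff)))
  · simp only [hw, star_self]
  · exact star_co _ _
  · rw [one_pow, one_mul, one_mul]
    have hle : ((k : ℕ∞) : WithTop ℕ∞) ≤ ∞ := by exact_mod_cast le_top
    set g : E → E := fun z => (Ψ z - z) + w' (Ψ z) with hg
    have hgs : ContDiff ℝ ∞ g := hθs.add (hw'.smooth.comp hΨs)
    have hwg : w = fun y => co T (g (0 + T.starProjection y)) := by
      funext y
      simp only [hw, hg, map_add, map_sub, co_star, sub_zero, zero_add]
    have h3 : ‖iteratedFDeriv ℝ k w y‖ ≤ ‖iteratedFDeriv ℝ k g (0 + T.starProjection y)‖ := by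
      rw [hwg]
      have h4 : ContDiff ℝ k fun y => g (0 + T.starProjection y) :=
        (hgs.of_le hle).comp (contDiff_const.add T.starProjection.contDiff)
      have h5 := (co T).norm_iteratedFDeriv_comp_left (h4.contDiffAt (x := y))
        (le_refl (k : WithTop ℕ∞))
      have h6 := COORD.norm_iteratedFDeriv_affine (hgs.of_le hle) T.starProjection
        T.starProjection_norm_le 0 y
      rw [one_pow, one_mul] at h6
      refine h5.trans ?_
      calc _ ≤ 1 * ‖iteratedFDeriv ℝ k g (0 + T.starProjection y)‖ := by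
            gcongr
            exact ContinuousLinearMap.opNorm_le_bound _ zero_le_one fun v => by
              rw [one_mul]; exact norm_co_le T v
        _ = _ := one_mul _
    refine h3.trans ?_
    set z := 0 + T.starProjection y with hz
    have h4 : iteratedFDeriv ℝ k g z = iteratedFDeriv ℝ k (fun y => Ψ y - y) z +
        iteratedFDeriv ℝ k (w' ∘ Ψ) z :=
      iteratedFDeriv_add_apply ((hθs.of_le hle).contDiffAt)
        (((hw'.smooth.of_le hle).comp (hΨs.of_le hle)).contDiffAt)
    have hΨb : ∀ i, 1 ≤ i → i ≤ k → ‖iteratedFDeriv ℝ i Ψ z‖ ≤ (1 + invC s) ^ i := by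
      intro i hi1 hi2
      have e1 : Ψ = (fun y => Ψ y - y) + fun y => y := by funext z; simp
      have h5 : ‖iteratedFDeriv ℝ i Ψ z‖ ≤ 1 + invC s := by
        conv_lhs => rw [e1]
        rw [iteratedFDeriv_add_apply (g := fun y : E => y)
          ((hθs.of_le (by exact_mod_cast le_top)).contDiffAt) (contDiff_id.contDiffAt)]
        refine (norm_add_le _ _).trans ?_
        have h6 := hθb i hi1 (by omega) z
        have h7 := norm_iter_id_le (E := E) hi1 z
        nlinarith
      exact h5.trans (le_self_pow₀ (by linarith) (by omega))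
    have h5 := norm_iter_comp_le (g := w') (f := Ψ) h1 (hw'.smooth.of_le hle) (hΨs.of_le hle) z
      hε0 (fun i hi1 hi2 => hw'b i hi1 (by omega) _) hΨb
    rw [h4]
    calc _ ≤ ‖iteratedFDeriv ℝ k (fun y => Ψ y - y) z‖ + ‖iteratedFDeriv ℝ k (w' ∘ Ψ) z‖ :=
          norm_add_le _ _
      _ ≤ invC s * (3 * ε) + k ! * ε * (1 + invC s) ^ k := add_le_add (hθb k h1 h2 z) h5
      _ ≤ invC s * (3 * ε) + s ! * ε * (1 + invC s) ^ s := by
          have h6 : (k ! : ℝ) ≤ s ! := by exact_mod_cast Nat.factorial_le h2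
          have h7 : (1 + invC s) ^ k ≤ (1 + invC s) ^ s := pow_le_pow_right₀ (by linarith) h2
          gcongr
      _ = rgC s * ε := by unfold rgC; ring
  · -- from the new graph to the old one
    have h1 : co T y = w y := sub_eq_zero.1 h
    have h2 := hmem (T.starProjection y) (star_self T y)
    set x := Ψ (T.starProjection y) with hx
    have h3 := hΨ1 (T.starProjection y)
    rw [hΦ, ← hx, h2, map_zero, add_zero] at h3
    have h4 : T'.starProjection x = x := by
      rw [co_apply, sub_eq_zero] at h2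
      exact h2.symm
    rw [h4] at h3
    have h5 : y = x + w' x := by
      conv_lhs => rw [← star_add_co T y, h1, ← h3]
      exact star_add_co T _
    have h6 : T'.starProjection y = x := by
      rw [h5, map_add, h4, hw'.perp, add_zero]
    unfold rel
    rw [co_apply, h6, ← hw'.base y, h6, h5]
    abel
  · have h1 : co T' y = w' y := sub_eq_zero.1 h
    set x := T'.starProjection y with hx
    have h2 : y = x + w' x := by
      rw [hx, hw'.base, ← h1, star_add_co]
    have h3 : x + f x = T.starProjection y := by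
      rw [hΦ, hx, star_self, co_star, map_zero, add_zero, hw'.base, ← h1, star_add_co]
    have h4 : Ψ (T.starProjection y) = x := by rw [← h3, hΨ2]
    unfold rel
    simp only [hw]
    rw [h4, ← h2, sub_self]

/-- **[B4-RG]** the same graph over another plane -/
theorem regraph {s : ℕ} (hs : 1 ≤ s) {T T' : Submodule ℝ E} {w' : E → E} {ε R : ℝ} (hR : 0 < R)
    (hε : ε ≤ 1 / 6) (hT : ‖T.starProjection - T'.starProjection‖ ≤ ε) (hw' : RF T' s ε R w') :
    ∃ w : E → E, RF T s (rgC s * ε) R w ∧ ∀ y, rel T w y = 0 ↔ rel T' w' y = 0 := by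
  have h1 := hw'.dil hR hR
  rw [div_self hR.ne'] at h1
  obtain ⟨w, hw, hiff⟩ := regraph_one hs hε hT h1
  have hR' : 0 < R⁻¹ := inv_pos.2 hR
  refine ⟨fun y => (R⁻¹)⁻¹ • w (R⁻¹ • y), ?_, fun y => ?_⟩
  · have h2 := hw.dil one_pos hR'
    rw [one_div] at h2
    simp only [inv_inv] at h2 ⊢
    exact h2
  · rw [rel_dil T w hR'.ne', smul_eq_zero_iff_right (inv_ne_zero hR'.ne'), hiff,
      rel_dil T' w' hR.ne', smul_eq_zero_iff_right (inv_ne_zero hR.ne'), smul_smul,
      mul_inv_cancel₀ hR.ne', one_smul]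

end Vale.Agent.P214.RG
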