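import Vale.Agent.P214.FM.Fermi
import Mathlib.Analysis.Calculus.ContDiff.Bounds

/-!
# P214, block RG: maps near the identity

A smooth map `y ↦ y + f y` with `‖Df‖ ≤ 1/2` has a smooth inverse `Ψ`, and the derivatives of order
`1, …, k` of `Ψ - id` are bounded linearly by those of `f`.
-/

open Set Filter Topology Metric
open scoped ContDiff Nat

set_option linter.all false

namespace Vale.Agent.P214.RG

section comp

variable {V W X : Type*} [NormedAddCommGroup V] [NormedSpace ℝ V] [NormedAddCommGroup W]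
  [NormedSpace ℝ W] [NormedAddCommGroup X] [NormedSpace ℝ X]

lemma iter_sub_const {g : W → X} {i : ℕ} (hi : 1 ≤ i) (c : X) (y : W) :
    iteratedFDeriv ℝ i (fun z => g z - c) y = iteratedFDeriv ℝ i g y := by
  obtain ⟨j, rfl⟩ : ∃ j, i = j + 1 := ⟨i - 1, by omega⟩
  have h1 : fderiv ℝ (fun z => g z - c) = fderiv ℝ g := by
    funext z
    exact fderiv_sub_const c
  rw [iteratedFDeriv_succ_eq_comp_right, iteratedFDeriv_succ_eq_comp_right]
  simp only [Function.comp_apply]
  rw [h1]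

/-- derivatives of order `≥ 1` of a composition -/
lemma norm_iter_comp_le {g : W → X} {f : V → W} {n : ℕ} (hn : 1 ≤ n) (hg : ContDiff ℝ n g)
    (hf : ContDiff ℝ n f) (x : V) {C D : ℝ} (hC0 : 0 ≤ C)
    (hC : ∀ i, 1 ≤ i → i ≤ n → ‖iteratedFDeriv ℝ i g (f x)‖ ≤ C)
    (hD : ∀ i, 1 ≤ i → i ≤ n → ‖iteratedFDeriv ℝ i f x‖ ≤ D ^ i) :
    ‖iteratedFDeriv ℝ n (g ∘ f) x‖ ≤ n ! * C * D ^ n := by
  have h1 : ContDiff ℝ n fun z => g z - g (f x) := hg.sub contDiff_const
  have h2 := norm_iteratedFDeriv_comp_le (g := fun z => g z - g (f x)) (f := f) (n := n) h1 hf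
    (le_refl (n : WithTop ℕ∞)) x (C := C) (D := D) (fun i hi => ?_) hD
  · have h3 : ((fun z => g z - g (f x)) ∘ f) = fun z => (g ∘ f) z - g (f x) := rfl
    rw [h3, iter_sub_const hn] at h2
    exact h2
  · rcases Nat.eq_zero_or_pos i with rfl | hi0
    · rw [norm_iteratedFDeriv_zero, sub_self, norm_zero]
      exact hC0
    · rw [iter_sub_const hi0]
      exact hC i hi0 hi

end comp

variable {E : Type*} [NormedAddCommGroup E] [NormedSpace ℝ E]

lemma norm_iter_id_le {k : ℕ} (hk : 1 ≤ k) (y : E) : ‖iteratedFDeriv ℝ k (fun y : E => y) y‖ ≤ 1 := by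
  obtain ⟨j, rfl⟩ : ∃ j, k = j + 1 := ⟨k - 1, by omega⟩
  rw [← norm_iteratedFDeriv_fderiv]
  have h1 : fderiv ℝ (fun y : E => y) = fun _ => ContinuousLinearMap.id ℝ E := by
    funext z; exact fderiv_id'
  rw [h1]
  rcases Nat.eq_zero_or_pos j with rfl | hj
  · rw [norm_iteratedFDeriv_zero]
    exact ContinuousLinearMap.norm_id_le
  · rw [iteratedFDeriv_const_of_ne (by omega)]
    simp

/-- constants in the bounds of the inverse -/
noncomputable def invC : ℕ → ℝ
  | 0 => 1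
  | k + 1 => invC k + 2 * (1 + 2 ^ k * (k ! * (1 + invC k) ^ (k + 1)))

lemma one_le_invC (k : ℕ) : 1 ≤ invC k := by
  induction k with
  | zero => exact le_refl _
  | succ k ih =>
    rw [invC]
    have : (0:ℝ) ≤ 2 ^ k * (k ! * (1 + invC k) ^ (k + 1)) := by positivity
    linarith

/-- **bounds for the inverse of a map near the identity** -/
theorem norm_iter_inv_le (k : ℕ) {f Ψ : E → E} {δ : ℝ} (hf : ContDiff ℝ ∞ f) (hΨ : ContDiff ℝ ∞ Ψ)
    (hinv : ∀ y, Ψ y + f (Ψ y) = y) (hδ : δ ≤ 1 / 2)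
    (hb : ∀ j, 1 ≤ j → j ≤ k → ∀ y, ‖iteratedFDeriv ℝ j f y‖ ≤ δ) :
    ∀ j, 1 ≤ j → j ≤ k → ∀ y, ‖iteratedFDeriv ℝ j (fun y => Ψ y - y) y‖ ≤ invC k * δ := by
  induction k with
  | zero => intro j h1 h2; omega
  | succ k ih =>
    intro j h1 h2 y
    have hδ0 : 0 ≤ δ := (norm_nonneg _).trans (hb 1 le_rfl (by omega) y)
    have ih' := ih fun j h1 h2 => hb j h1 (by omega)
    have hC1 := one_le_invC k
    have hCC : 0 ≤ 2 * (1 + 2 ^ k * (k ! * (1 + invC k) ^ (k + 1))) := by positivity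
    rcases Nat.lt_or_ge k j with hj | hj
    swap
    · refine (ih' j h1 hj y).trans ?_
      rw [invC]
      nlinarith
    obtain rfl : j = k + 1 := by omega
    set D : ℝ := 1 + invC k with hD
    have hD1 : 1 ≤ D := by linarith
    set X : ℝ := ‖iteratedFDeriv ℝ (k + 1) (fun y => Ψ y - y) y‖ with hX
    have hθ : ContDiff ℝ ∞ fun y => Ψ y - y := hΨ.sub contDiff_id
    -- derivatives of `Ψ`
    have hΨθ : ∀ i, 1 ≤ i → ‖iteratedFDeriv ℝ i Ψ y‖ ≤
        ‖iteratedFDeriv ℝ i (fun y => Ψ y - y) y‖ + 1 := by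
      intro i hi
      have e1 : Ψ = (fun y => Ψ y - y) + fun y => y := by funext z; simp
      conv_lhs => rw [e1]
      rw [iteratedFDeriv_add_apply (g := fun y : E => y)
        ((hθ.of_le (by exact_mod_cast le_top)).contDiffAt) (contDiff_id.contDiffAt)]
      exact (norm_add_le _ _).trans (by gcongr; exact norm_iter_id_le hi y)
    have hΨD : ∀ i, 1 ≤ i → i ≤ k → ‖iteratedFDeriv ℝ i Ψ y‖ ≤ D := by
      intro i h1 h2
      refine (hΨθ i h1).trans ?_
      have := ih' i h1 h2 y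
      have h3 : invC k * δ ≤ invC k := by nlinarith
      linarith
    have hΨDp : ∀ i, 1 ≤ i → i ≤ k → ‖iteratedFDeriv ℝ i Ψ y‖ ≤ D ^ i := fun i h1 h2 =>
      (hΨD i h1 h2).trans (le_self_pow₀ hD1 (by omega))
    -- the equation of the first derivative
    have hfd : Differentiable ℝ f := hf.differentiable (by simp)
    have hΨd : Differentiable ℝ Ψ := hΨ.differentiable (by simp)
    have hf1 : ContDiff ℝ ∞ (fderiv ℝ f) := hf.fderiv_right (by exact_mod_cast le_rfl)
    have hΨ1 : ContDiff ℝ ∞ (fderiv ℝ Ψ) := hΨ.fderiv_right (by exact_mod_cast le_rfl)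
    have heq : fderiv ℝ (fun y => Ψ y - y) =
        fun y => -((fderiv ℝ f (Ψ y)).comp (fderiv ℝ Ψ y)) := by
      have e1 : (fun y => Ψ y - y) = fun y => - f (Ψ y) := by
        funext z
        have := hinv z
        rw [← sub_eq_zero] at this ⊢
        rw [← this]; abel
      rw [e1]
      funext z
      exact ((hfd (Ψ z)).hasFDerivAt.comp z (hΨd z).hasFDerivAt).neg.fderiv
    have hX1 : X ≤ ‖iteratedFDeriv ℝ k (fun y => (fderiv ℝ f (Ψ y)).comp (fderiv ℝ Ψ y)) y‖ := by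
      rw [hX, ← norm_iteratedFDeriv_fderiv, heq]
      have e2 : (fun y => -((fderiv ℝ f (Ψ y)).comp (fderiv ℝ Ψ y))) =
          -(fun y => (fderiv ℝ f (Ψ y)).comp (fderiv ℝ Ψ y)) := rfl
      rw [e2, iteratedFDeriv_neg_apply, norm_neg]
    have hA : ∀ i, 1 ≤ i → i ≤ k → ‖iteratedFDeriv ℝ i (fun y => fderiv ℝ f (Ψ y)) y‖ ≤
        k ! * δ * D ^ k := by
      intro i h1 h2
      have h3 := norm_iter_comp_le (g := fderiv ℝ f) (f := Ψ) h1
        (hf1.of_le (by exact_mod_cast le_top)) (hΨ.of_le (by exact_mod_cast le_top)) y hδ0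
        (fun l hl1 hl2 => by
          rw [norm_iteratedFDeriv_fderiv]
          exact hb (l + 1) (by omega) (by omega) _)
        (fun l hl1 hl2 => hΨDp l hl1 (by omega))
      refine h3.trans ?_
      have h4 : (i ! : ℝ) ≤ k ! := by exact_mod_cast Nat.factorial_le h2
      have h5 : D ^ i ≤ D ^ k := pow_le_pow_right₀ hD1 h2
      gcongr
    have hB := (ContinuousLinearMap.compL ℝ E E E).norm_iteratedFDeriv_le_of_bilinear_of_le_one
      (f := fun y => fderiv ℝ f (Ψ y)) (g := fderiv ℝ Ψ) (N := ∞) (hf1.comp hΨ) hΨ1 y (n := k)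
      (by exact_mod_cast le_top) (ContinuousLinearMap.norm_compL_le ℝ E E E)
    have hX2 : X ≤ ∑ i ∈ Finset.range (k + 1), (k.choose i : ℝ) *
        ‖iteratedFDeriv ℝ i (fun y => fderiv ℝ f (Ψ y)) y‖ *
        ‖iteratedFDeriv ℝ (k - i) (fderiv ℝ Ψ) y‖ := hX1.trans hB
    have hterm : ∀ i ∈ Finset.range (k + 1), (k.choose i : ℝ) *
        ‖iteratedFDeriv ℝ i (fun y => fderiv ℝ f (Ψ y)) y‖ *
        ‖iteratedFDeriv ℝ (k - i) (fderiv ℝ Ψ) y‖ ≤
        (if i = 0 then δ * (X + 1) else 0) + (k.choose i : ℝ) * (k ! * δ * D ^ (k + 1)) := by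
      intro i hi
      have hik : i ≤ k := by rw [Finset.mem_range] at hi; omega
      rcases Nat.eq_zero_or_pos i with rfl | hi0
      · rw [if_pos rfl, Nat.choose_zero_right, Nat.cast_one, one_mul, one_mul,
          norm_iteratedFDeriv_zero, Nat.sub_zero, norm_iteratedFDeriv_fderiv]
        have h3 : ‖fderiv ℝ f (Ψ y)‖ ≤ δ := by
          rw [← norm_iteratedFDeriv_one]
          exact hb 1 le_rfl (by omega) _
        have h4 := hΨθ (k + 1) (by omega)
        have h5 : 0 ≤ k ! * δ * D ^ (k + 1) := by positivity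
        calc _ ≤ δ * (X + 1) := by gcongr
          _ ≤ _ := by linarith
      · rw [if_neg (by omega), zero_add, norm_iteratedFDeriv_fderiv]
        have h3 := hA i hi0 hik
        have h4 := hΨD (k - i + 1) (by omega) (by omega)
        rw [mul_assoc]
        refine mul_le_mul_of_nonneg_left ?_ (Nat.cast_nonneg _)
        calc _ ≤ (k ! * δ * D ^ k) * D := mul_le_mul h3 h4 (norm_nonneg _) (by positivity)
          _ = _ := by rw [pow_succ]; ring
    have hX3 := hX2.trans (Finset.sum_le_sum hterm)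
    rw [Finset.sum_add_distrib, ← Finset.sum_mul] at hX3
    have e3 : ∑ i ∈ Finset.range (k + 1), (k.choose i : ℝ) = 2 ^ k := by
      exact_mod_cast Nat.sum_range_choose k
    rw [e3, Finset.sum_ite_eq' (Finset.range (k + 1)) 0, if_pos (by simp)] at hX3
    have hX0 : 0 ≤ X := norm_nonneg _
    have h6 : δ * (X + 1) ≤ 1 / 2 * X + δ := by nlinarith
    rw [invC]
    have h7 : X ≤ 2 * δ * (1 + 2 ^ k * (k ! * D ^ (k + 1))) := by
      have e4 : (2:ℝ) ^ k * (k ! * δ * D ^ (k + 1)) = δ * (2 ^ k * (k ! * D ^ (k + 1))) := by ring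
      rw [e4] at hX3
      nlinarith
    have h8 : 0 ≤ invC k * δ := by positivity
    calc X ≤ 2 * δ * (1 + 2 ^ k * (k ! * D ^ (k + 1))) := h7
      _ ≤ invC k * δ + 2 * δ * (1 + 2 ^ k * (k ! * D ^ (k + 1))) := by linarith
      _ = _ := by rw [hD]; ring

/-! ### existence of the inverse -/

variable [FiniteDimensional ℝ E]

/-- **a smooth map near the identity has a smooth inverse** -/
theorem exists_inv {f : E → E} (hf : ContDiff ℝ ∞ f) (h : ∀ y, ‖fderiv ℝ f y‖ ≤ 1 / 2) :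
    ∃ Ψ : E → E, ContDiff ℝ ∞ Ψ ∧ (∀ y, Ψ y + f (Ψ y) = y) ∧ ∀ x, Ψ (x + f x) = x := by
  have hfd : Differentiable ℝ f := hf.differentiable (by simp)
  set Φ : E → E := fun x => x + f x with hΦ
  have hΦc : ContDiff ℝ ∞ Φ := contDiff_id.add hf
  have hΦ' : ∀ x, HasFDerivAt Φ (ContinuousLinearMap.id ℝ E + fderiv ℝ f x) x := fun x =>
    (hasFDerivAt_id x).add (hfd x).hasFDerivAt
  have happ : ApproximatesLinearOn Φ
      ((ContinuousLinearEquiv.refl ℝ E : E ≃L[ℝ] E) : E →L[ℝ] E) univ (1 / 2) := by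
    intro x _ y _
    have h3 := (convex_univ (𝕜 := ℝ) (E := E)).norm_image_sub_le_of_norm_hasFDerivWithin_le
      (f := f) (f' := fderiv ℝ f) (C := 1 / 2) (fun z _ => (hfd z).hasFDerivAt.hasFDerivWithinAt)
      (fun z _ => h z) (mem_univ y) (mem_univ x)
    calc ‖Φ x - Φ y - ((ContinuousLinearEquiv.refl ℝ E : E ≃L[ℝ] E) : E →L[ℝ] E) (x - y)‖
        = ‖f x - f y‖ := by
          congr 1
          simp [hΦ]
          abel
      _ ≤ 1 / 2 * ‖x - y‖ := h3
      _ = _ := by norm_num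
  let H : E ≃ₜ E := happ.toHomeomorph _ (by
    rcases subsingleton_or_nontrivial E with h | h
    · exact Or.inl h
    · refine Or.inr ?_
      have : ‖((ContinuousLinearEquiv.refl ℝ E).symm : E →L[ℝ] E)‖₊ = 1 := by
        have h1 : ((ContinuousLinearEquiv.refl ℝ E).symm : E →L[ℝ] E) =
          ContinuousLinearMap.id ℝ E := rfl
        rw [h1]
        exact ContinuousLinearMap.nnnorm_id
      rw [this, inv_one]
      exact NNReal.coe_lt_coe.1 (by norm_num))
  have hH : ∀ x, H x = Φ x := fun _ => rfl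
  have hL : ∀ x, ∃ L : E ≃L[ℝ] E, (L : E →L[ℝ] E) = ContinuousLinearMap.id ℝ E + fderiv ℝ f x := by
    intro x
    have h1 : Function.Injective (ContinuousLinearMap.id ℝ E + fderiv ℝ f x) := by
      rw [injective_iff_map_eq_zero]
      intro v hv
      have h2 : v + fderiv ℝ f x v = 0 := hv
      have h3 : ‖v‖ ≤ 1 / 2 * ‖v‖ := by
        calc ‖v‖ = ‖fderiv ℝ f x v‖ := by
              conv_lhs => rw [eq_neg_of_add_eq_zero_left h2]
              rw [norm_neg]
          _ ≤ ‖fderiv ℝ f x‖ * ‖v‖ := (fderiv ℝ f x).le_opNorm v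
          _ ≤ 1 / 2 * ‖v‖ := by gcongr; exact h x
      exact norm_eq_zero.1 (le_antisymm (by linarith) (norm_nonneg v))
    let L : E ≃ₗ[ℝ] E := LinearEquiv.ofInjectiveEndo
      ((ContinuousLinearMap.id ℝ E + fderiv ℝ f x : E →L[ℝ] E) : E →ₗ[ℝ] E) h1
    refine ⟨L.toContinuousLinearEquiv, ?_⟩
    ext v
    rfl
  choose L hL using hL
  have hsm : ContDiff ℝ ∞ H.symm := by
    refine H.contDiff_symm (f₀' := L) (fun a => ?_) hΦc
    rw [hL a]
    exact hΦ' a
  exact ⟨H.symm, hsm, fun y => H.apply_symm_apply y, fun x => H.symm_apply_apply x⟩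

end Vale.Agent.P214.RG
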